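import Vale.Agent.P330.S.H174.StepAPI

/-!
# The positions as a cyclic line

If the side lengths are pairwise coprime, `k ↦ (k mod L i)_i` identifies the numbers
`0, …, ∏ L i - 1` with the positions.
-/

namespace Vale.Agent.P330.S

open Finset

variable {S : Spec} {r : ℕ}

/-- The position with number `k`. -/
def posL (L : Fin r → ℕ) (k : ℤ) : ∀ i, ZMod (L i) := fun i => (k : ZMod (L i))

theorem posL_add (L : Fin r → ℕ) (a b : ℤ) : posL L (a + b) = posL L a + posL L b := by
  funext i; simp [posL]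

theorem posL_sub (L : Fin r → ℕ) (a b : ℤ) : posL L (a - b) = posL L a - posL L b := by
  funext i; simp [posL]

theorem posL_zero (L : Fin r → ℕ) : posL L 0 = 0 := by
  funext i; simp [posL]

/-- The number of positions. -/
def numL (L : Fin r → ℕ) : ℕ := ∏ i, L i

theorem posL_eq_iff {L : Fin r → ℕ} (hco : ∀ i j, i ≠ j → (L i).Coprime (L j)) (a b : ℤ) :
    posL L a = posL L b ↔ ((numL L : ℕ) : ℤ) ∣ b - a := by
  unfold posL numL
  rw [funext_iff]
  constructor
  · intro h
    have h2 : ∀ i, ((L i : ℕ) : ℤ) ∣ b - a := fun i => by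
      have := h i
      rw [ZMod.intCast_eq_intCast_iff_dvd_sub] at this
      exact this
    rw [Nat.cast_prod]
    refine Finset.prod_dvd_of_coprime ?_ (fun i _ => h2 i)
    intro i _ j _ hij
    exact Nat.isCoprime_iff_coprime.mpr (hco i j hij)
  · intro h i
    rw [ZMod.intCast_eq_intCast_iff_dvd_sub]
    refine dvd_trans ?_ h
    exact_mod_cast Finset.dvd_prod_of_mem L (Finset.mem_univ i)

theorem posL_inj {L : Fin r → ℕ} (hco : ∀ i j, i ≠ j → (L i).Coprime (L j)) {a b : ℤ}
    (hab : |b - a| < (numL L : ℕ)) (h : posL L a = posL L b) : a = b := by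
  rw [posL_eq_iff hco] at h
  have := Int.eq_zero_of_abs_lt_dvd h hab
  omega

theorem posL_surj {L : Fin r → ℕ} (hL : ∀ i, 0 < L i)
    (hco : ∀ i j, i ≠ j → (L i).Coprime (L j)) (j : ∀ i, ZMod (L i)) :
    ∃ k : ℕ, k < numL L ∧ posL L k = j := by
  have : ∀ i, NeZero (L i) := fun i => ⟨(hL i).ne'⟩
  have hN : 0 < numL L := Finset.prod_pos fun i _ => hL i
  have : NeZero (numL L) := ⟨hN.ne'⟩
  let f : Fin (numL L) → (∀ i, ZMod (L i)) := fun k => posL L (k : ℕ)
  have hf : Function.Injective f := by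
    intro a b hab
    have := posL_inj hco (a := ((a : ℕ) : ℤ)) (b := ((b : ℕ) : ℤ)) (by
      have ha := a.2; have hb := b.2
      rw [abs_lt]; constructor <;> omega) hab
    exact Fin.ext (by exact_mod_cast this)
  have hcard : Fintype.card (Fin (numL L)) = Fintype.card (∀ i, ZMod (L i)) := by
    rw [Fintype.card_fin, Fintype.card_pi]
    unfold numL
    refine Finset.prod_congr rfl fun i _ => ?_
    rw [ZMod.card]
  have hs := ((Fintype.bijective_iff_injective_and_card f).2 ⟨hf, hcard⟩).2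
  obtain ⟨k, hk⟩ := hs j
  exact ⟨k, k.2, hk⟩

theorem posL_unique {L : Fin r → ℕ} (hco : ∀ i j, i ≠ j → (L i).Coprime (L j)) {a b : ℕ}
    (ha : a < numL L) (hb : b < numL L) (h : posL L a = posL L b) : a = b := by
  have := posL_inj hco (a := (a : ℤ)) (b := (b : ℤ)) (by
      rw [abs_lt]; constructor <;> omega) h
  exact_mod_cast this

/-- The position `numL L` is the position `0`. -/
theorem posL_period {L : Fin r → ℕ} (hco : ∀ i j, i ≠ j → (L i).Coprime (L j)) (a m : ℤ) :
    posL L (a + m * (numL L : ℕ)) = posL L a := by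
  rw [posL_eq_iff hco]
  exact ⟨-m, by ring⟩

/-- The number of a position. -/
noncomputable def idxL (L : Fin r → ℕ) (hL : ∀ i, 0 < L i)
    (hco : ∀ i j, i ≠ j → (L i).Coprime (L j)) (j : ∀ i, ZMod (L i)) : ℕ :=
  (posL_surj hL hco j).choose

section idx

variable {L : Fin r → ℕ} (hL : ∀ i, 0 < L i) (hco : ∀ i j, i ≠ j → (L i).Coprime (L j))

theorem idxL_lt (j : ∀ i, ZMod (L i)) : idxL L hL hco j < numL L :=
  (posL_surj hL hco j).choose_spec.1

theorem posL_idxL (j : ∀ i, ZMod (L i)) : posL L (idxL L hL hco j : ℕ) = j :=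
  (posL_surj hL hco j).choose_spec.2

theorem idxL_posL {k : ℕ} (hk : k < numL L) : idxL L hL hco (posL L (k : ℕ)) = k :=
  posL_unique hco (idxL_lt hL hco _) hk (posL_idxL hL hco _)

/-- The number of the next position. -/
theorem idxL_posL_int (k : ℤ) :
    ((idxL L hL hco (posL L k) : ℕ) : ℤ) = k % (numL L : ℕ) := by
  have hN : 0 < numL L := Finset.prod_pos fun i _ => hL i
  have h1 : posL L (idxL L hL hco (posL L k) : ℕ) = posL L k := posL_idxL hL hco _
  rw [posL_eq_iff hco] at h1
  have h2 := idxL_lt hL hco (posL L k)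
  have h4 : ((idxL L hL hco (posL L k) : ℕ) : ℤ) % (numL L : ℕ) = (idxL L hL hco (posL L k) : ℕ) :=
    Int.emod_eq_of_lt (by positivity) (by exact_mod_cast h2)
  rw [← h4]
  exact ((Int.emod_emod_of_dvd k (dvd_refl _)).symm.trans
    ((Int.emod_emod_of_dvd k (dvd_refl _)))) ▸ (Int.ModEq.symm (Int.modEq_iff_dvd.2 (by
      rw [← Int.dvd_neg]; simpa using h1)))

end idx

end Vale.Agent.P330.S
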