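import Vale.Agent.P330.S.Defs

/-!
# Machine independent API for `IsHead`, `apply`, `step`
-/

namespace Vale.Agent.P330.S

open Finset

variable {S : Spec} {r : ℕ} (I : Inst S r)

namespace Inst

variable {I}

theorem IsHead.unique {w : I.J → S.Cell} {h h' : I.J} (H : I.IsHead w h) (H' : I.IsHead w h') :
    h = h' := (H'.2 h H.1)

/-- The step at a configuration with head `h`. -/
theorem step_of_head {w : I.J → S.Cell} {h : I.J} (H : I.IsHead w h) (z : Bool) :
    I.step z w = I.apply z w h := by
  unfold Inst.step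
  have hh : ∃ h, I.IsHead w h := ⟨h, H⟩
  rw [dif_pos hh, hh.choose_spec.unique H]

/-- The window around `h`. -/
def around (w : I.J → S.Cell) (h : I.J) (o : S.Off) : S.Cell := w (h + I.off o)

theorem apply_upd (z : Bool) (w : I.J → S.Cell) (h : I.J) {o : S.Off} (ho : S.upd o = true) :
    I.apply z w h (h + I.off o) = (S.rule z (around w h)).2 o := by
  unfold Inst.apply
  have hj : ∃ o', S.upd o' = true ∧ h + I.off o = h + I.off o' := ⟨o, ho, rfl⟩
  rw [dif_pos hj]
  have h2 := hj.choose_spec
  have : hj.choose = o := I.off_inj _ _ h2.1 ho (by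
    have := h2.2
    exact (add_left_cancel this).symm)
  rw [this]
  rfl

theorem apply_upd' (z : Bool) (w : I.J → S.Cell) (h : I.J) {o : S.Off} (ho : S.upd o = true)
    {j : I.J} (hj : j = h + I.off o) :
    I.apply z w h j = (S.rule z (around w h)).2 o := by
  subst hj; exact apply_upd z w h ho

theorem apply_off (z : Bool) (w : I.J → S.Cell) (h : I.J) {j : I.J}
    (hj : ∀ o, S.upd o = true → j ≠ h + I.off o) :
    I.apply z w h j = (S.rule z (around w h)).1 (w j) := by
  unfold Inst.apply
  rw [dif_neg]
  · rfl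
  · rintro ⟨o, ho, h2⟩
    exact hj o ho h2

theorem step_upd {w : I.J → S.Cell} {h : I.J} (H : I.IsHead w h) (z : Bool) {o : S.Off}
    (ho : S.upd o = true) : I.step z w (h + I.off o) = (S.rule z (around w h)).2 o := by
  rw [step_of_head H, apply_upd z w h ho]

theorem step_off {w : I.J → S.Cell} {h : I.J} (H : I.IsHead w h) (z : Bool) {j : I.J}
    (hj : ∀ o, S.upd o = true → j ≠ h + I.off o) :
    I.step z w j = (S.rule z (around w h)).1 (w j) := by
  rw [step_of_head H, apply_off z w h hj]

/-- Characterisation of the step as a function. -/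
theorem step_eq_iff {w w' : I.J → S.Cell} {h : I.J} (H : I.IsHead w h) (z : Bool) :
    I.step z w = w' ↔ (∀ o, S.upd o = true → w' (h + I.off o) = (S.rule z (around w h)).2 o) ∧
      ∀ j, (∀ o, S.upd o = true → j ≠ h + I.off o) → w' j = (S.rule z (around w h)).1 (w j) := by
  constructor
  · rintro rfl
    exact ⟨fun o ho => step_upd H z ho, fun j hj => step_off H z hj⟩
  · rintro ⟨h1, h2⟩
    funext j
    by_cases hj : ∃ o, S.upd o = true ∧ j = h + I.off o
    · obtain ⟨o, ho, rfl⟩ := hj
      rw [step_upd H z ho, h1 o ho]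
    · push Not at hj
      rw [step_off H z hj, h2 j hj]

end Inst

end Vale.Agent.P330.S
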