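import Vale.Agent.P330.S.MachValid
import Vale.Agent.P330.S.H174.StepAPI

/-!
# The three actions as maps of configurations
-/

namespace Vale.Agent.P330.S.Mach

open Finset

variable {r : ℕ} {P : Prm} {L : Fin r → ℕ}

theorem Good.off_ne (h : Good P L) {o o' : Off} (ho : upd o = true) (ho' : upd o' = true)
    (hne : o ≠ o') (j : ∀ i, ZMod (L i)) : j + P.off L o ≠ j + P.off L o' := fun e =>
  hne (h.off_inj o o' ho ho' (add_left_cancel e))

theorem add_o0 (j : ∀ i, ZMod (L i)) : j + P.off L .o0 = j := by
  funext i; simp [Prm.off, Prm.offZ]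

theorem Good.posn_eq_iff (h : Good P L) {p : ℕ} (hp : p ≤ P.R * P.W) (j : ∀ i, ZMod (L i)) :
    posn L (P.R * P.W) j = p ↔ j = pt L p := by
  constructor
  · intro e
    have := Good.pt_posn L (P.R * P.W) j (by rw [e]; exact hp)
    rw [← this, e]
  · rintro rfl
    exact h.posn_pt hp

/-- The step as a case distinction. -/
theorem step_apply (h : Good P L) {w : (∀ i, ZMod (L i)) → Cell} {q : ∀ i, ZMod (L i)}
    (H : (mkInst P L h).IsHead w q) (z : Bool) {j : ∀ i, ZMod (L i)} {F : Cell}
    (hupd : ∀ o, upd o = true → j = q + P.off L o →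
      F = (rule z (fun o => w (q + P.off L o))).2 o)
    (hoff : (∀ o, upd o = true → j ≠ q + P.off L o) →
      F = (rule z (fun o => w (q + P.off L o))).1 (w j)) :
    (mkInst P L h).step z w j = F := by
  by_cases hj : ∃ o, upd o = true ∧ j = q + P.off L o
  · obtain ⟨o, ho, e⟩ := hj
    have h1 := Inst.step_upd H z (o := o) ho
    rw [hupd o ho e]
    subst e
    exact h1
  · push Not at hj
    have h1 := Inst.step_off H z (j := j) hj
    rw [hoff hj]
    exact h1

theorem step_fill (h : Good P L) {w : (∀ i, ZMod (L i)) → Cell} {q : ∀ i, ZMod (L i)}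
    (H : (mkInst P L h).IsHead w q) (z : Bool) {k : Bool} (ha : actOf z (w q) = .fill k)
    (j : ∀ i, ZMod (L i)) :
    (mkInst P L h).step z w j = if j = q then
      ((w q).setArr k (some (newCon k (w q) (w (q + P.off L .m1)) (w (q + P.off L .mW))
        (w (q + P.off L .far))))).setHd false
      else if j = q + P.off L .p1 then (w j).setHd true else w j := by
  have hr : rule z (fun o => w (q + P.off L o)) = doAct (fun o => w (q + P.off L o)) (.fill k) := by
    unfold rule
    rw [show (fun o => w (q + P.off L o)) Off.o0 = w q by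
      show w (q + P.off L .o0) = w q
      rw [add_o0], ha]
  apply step_apply h H z
  · intro o ho e
    rw [hr]
    unfold doAct
    subst e
    cases o
    · simp only [add_o0, if_true]
    · rw [if_neg, if_pos rfl]
      have := h.off_ne (o := .p1) (o' := .o0) rfl rfl (by decide) q
      rwa [add_o0] at this
    · rw [if_neg, if_neg]
      · exact h.off_ne (o := .m1) (o' := .p1) rfl rfl (by decide) q
      · have := h.off_ne (o := .m1) (o' := .o0) rfl rfl (by decide) q
        rwa [add_o0] at this
    · cases ho
    · cases ho
    · rw [if_neg, if_neg]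
      · exact h.off_ne (o := .pR) (o' := .p1) rfl rfl (by decide) q
      · have := h.off_ne (o := .pR) (o' := .o0) rfl rfl (by decide) q
        rwa [add_o0] at this
    · rw [if_neg, if_neg]
      · exact h.off_ne (o := .mR) (o' := .p1) rfl rfl (by decide) q
      · have := h.off_ne (o := .mR) (o' := .o0) rfl rfl (by decide) q
        rwa [add_o0] at this
  · intro hj
    rw [hr]
    unfold doAct
    have h1 := hj .o0 rfl
    rw [add_o0] at h1
    rw [if_neg h1, if_neg (hj .p1 rfl)]

theorem step_unfill (h : Good P L) {w : (∀ i, ZMod (L i)) → Cell} {q : ∀ i, ZMod (L i)}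
    (H : (mkInst P L h).IsHead w q) (z : Bool) {k : Bool} (ha : actOf z (w q) = .unfill k)
    (j : ∀ i, ZMod (L i)) :
    (mkInst P L h).step z w j = if j = q then (w q).setHd false
      else if j = q + P.off L .m1 then ((w j).setArr k none).setHd true else w j := by
  have hr : rule z (fun o => w (q + P.off L o)) =
      doAct (fun o => w (q + P.off L o)) (.unfill k) := by
    unfold rule
    rw [show (fun o => w (q + P.off L o)) Off.o0 = w q by
      show w (q + P.off L .o0) = w q
      rw [add_o0], ha]
  apply step_apply h H z
  · intro o ho e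
    rw [hr]
    unfold doAct
    subst e
    cases o
    · simp only [add_o0, if_true]
    · rw [if_neg, if_neg]
      · exact h.off_ne (o := .p1) (o' := .m1) rfl rfl (by decide) q
      · have := h.off_ne (o := .p1) (o' := .o0) rfl rfl (by decide) q
        rwa [add_o0] at this
    · rw [if_neg, if_pos rfl]
      have := h.off_ne (o := .m1) (o' := .o0) rfl rfl (by decide) q
      rwa [add_o0] at this
    · cases ho
    · cases ho
    · rw [if_neg, if_neg]
      · exact h.off_ne (o := .pR) (o' := .m1) rfl rfl (by decide) q
      · have := h.off_ne (o := .pR) (o' := .o0) rfl rfl (by decide) q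
        rwa [add_o0] at this
    · rw [if_neg, if_neg]
      · exact h.off_ne (o := .mR) (o' := .m1) rfl rfl (by decide) q
      · have := h.off_ne (o := .mR) (o' := .o0) rfl rfl (by decide) q
        rwa [add_o0] at this
  · intro hj
    rw [hr]
    unfold doAct
    have h1 := hj .o0 rfl
    rw [add_o0] at h1
    rw [if_neg h1, if_neg (hj .m1 rfl)]

/-- a jump without movement of the head -/
theorem step_jump0 (h : Good P L) {w : (∀ i, ZMod (L i)) → Cell} {q : ∀ i, ZMod (L i)}
    (H : (mkInst P L h).IsHead w q) (z : Bool) {ph : Ph} {sw : Bool}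
    (ha : actOf z (w q) = .jump ph sw .o0) (j : ∀ i, ZMod (L i)) :
    (mkInst P L h).step z w j = jmp ph sw (w j) := by
  have hr : rule z (fun o => w (q + P.off L o)) =
      doAct (fun o => w (q + P.off L o)) (.jump ph sw .o0) := by
    unfold rule
    rw [show (fun o => w (q + P.off L o)) Off.o0 = w q by
      show w (q + P.off L .o0) = w q
      rw [add_o0], ha]
  apply step_apply h H z
  · intro o ho e
    rw [hr]
    unfold doAct
    subst e
    simp
  · intro hj
    rw [hr]
    unfold doAct
    rfl

/-- a jump with movement of the head -/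
theorem step_jump (h : Good P L) {w : (∀ i, ZMod (L i)) → Cell} {q : ∀ i, ZMod (L i)}
    (H : (mkInst P L h).IsHead w q) (z : Bool) {ph : Ph} {sw : Bool} {tgt : Off}
    (ht : tgt ≠ .o0) (htu : upd tgt = true)
    (ha : actOf z (w q) = .jump ph sw tgt) (j : ∀ i, ZMod (L i)) :
    (mkInst P L h).step z w j = if j = q then (jmp ph sw (w q)).setHd false
      else if j = q + P.off L tgt then (jmp ph sw (w j)).setHd true else jmp ph sw (w j) := by
  have hr : rule z (fun o => w (q + P.off L o)) =
      doAct (fun o => w (q + P.off L o)) (.jump ph sw tgt) := by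
    unfold rule
    rw [show (fun o => w (q + P.off L o)) Off.o0 = w q by
      show w (q + P.off L .o0) = w q
      rw [add_o0], ha]
  apply step_apply h H z
  · intro o ho e
    rw [hr]
    unfold doAct
    subst e
    simp only [if_neg ht]
    by_cases h0 : o = .o0
    · subst h0
      simp only [add_o0, if_true]
    · have h1 : q + P.off L o ≠ q := by
        have := h.off_ne ho (show upd .o0 = true from rfl) h0 q
        rwa [add_o0] at this
      rw [if_neg h1, if_neg h0]
      by_cases h2 : o = tgt
      · subst h2
        simp only [if_true]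
      · rw [if_neg (h.off_ne ho htu h2 q), if_neg h2]
  · intro hj
    rw [hr]
    unfold doAct
    have h1 := hj .o0 rfl
    rw [add_o0] at h1
    rw [if_neg h1, if_neg (hj tgt htu)]

end Vale.Agent.P330.S.Mach
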