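import Vale.Agent.P330.S.Mach

/-!
# Semantic configurations of the concrete dynamics
-/

namespace Vale.Agent.P330.S.Mach

open Finset

/-- The array that contains the input `x`. -/
def Ph.own : Ph → Bool
  | .A1 => false
  | .A2 => false
  | .B3 => true
  | .B4 => true

/-- Semantic configurations: phase, position of the head, input `x` (of the array `false` in the
phases `A1`, `A2`, of the array `true` in the phases `B3`, `B4`). -/
structure Conf where
  ph : Ph
  h : ℕ
  x : ℕ → Bool

/-- input of the array `k` -/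
def Conf.inp (P : Prm) (c : Conf) (k : Bool) : ℕ → Bool :=
  if k = c.ph.own then c.x else P.out c.ph.own c.x

/-- number of filled cells of the array `k` -/
def Conf.len (P : Prm) (c : Conf) (k : Bool) : ℕ :=
  if k = c.ph.act then c.h else if c.ph.full then P.R * P.W else 0

/-- content of the array `k` at the position with number `p` -/
def Conf.arr (P : Prm) (c : Conf) (k : Bool) (p : ℕ) : Option Con :=
  if p < c.len P k then some (P.tab k (c.inp P k) p) else none

/-- the cell with number `p` -/
def Conf.cell (P : Prm) (c : Conf) (p : ℕ) : Cell :=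
  ⟨P.st p, c.ph, decide (p = c.h), c.arr P false p, c.arr P true p⟩

variable {r : ℕ}

/-- the configuration -/
noncomputable def Conf.render (P : Prm) (L : Fin r → ℕ) (c : Conf) (j : ∀ i, ZMod (L i)) : Cell :=
  c.cell P (posn L (P.R * P.W) j)

/-- range of the position of the head -/
def Conf.Rng (P : Prm) (c : Conf) : Prop :=
  c.h ≤ P.R * P.W ∧ (c.ph.full = false → P.W ≤ c.h)

/-- The input of the array `true` is not zero, as far as this has been checked. -/
def Conf.Nz (P : Prm) (c : Conf) : Prop :=
  match c.ph with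
  | .A1 => True
  | .A2 => P.W ≤ c.h → ∃ j < P.n, P.out false c.x j = true
  | .B3 => ∃ j < P.n, c.x j = true
  | .B4 => ∃ j < P.n, c.x j = true

/-- The output of the array in motion is the input of the other one, as far as this has been
checked. -/
def Conf.Mt (P : Prm) (c : Conf) : Prop :=
  c.ph.full = true → ∀ j < P.n, (P.R - 1) * P.W + j < c.h →
    P.out (!c.ph.own) (P.out c.ph.own c.x) j = c.x j

/-- correct semantic configurations -/
def Conf.Ok (P : Prm) (c : Conf) : Prop := c.Rng P ∧ c.Nz P ∧ c.Mt P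

/-- the next configuration (`z = false`: successor, `z = true`: predecessor) -/
def Conf.next (P : Prm) (z : Bool) (c : Conf) : Conf :=
  match z, c.ph with
  | false, .A1 => if c.h = P.R * P.W then ⟨.A2, 0, c.x⟩ else ⟨.A1, c.h + 1, c.x⟩
  | false, .A2 => if c.h = P.R * P.W then ⟨.B3, P.R * P.W, P.out false c.x⟩
      else ⟨.A2, c.h + 1, c.x⟩
  | false, .B3 => if c.h = 0 then ⟨.B4, P.R * P.W, c.x⟩ else ⟨.B3, c.h - 1, c.x⟩
  | false, .B4 => if c.h = P.W then ⟨.A1, P.W, c.x⟩ else ⟨.B4, c.h - 1, c.x⟩
  | true, .A1 => if c.h = P.W then ⟨.B4, P.W, c.x⟩ else ⟨.A1, c.h - 1, c.x⟩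
  | true, .A2 => if c.h = 0 then ⟨.A1, P.R * P.W, c.x⟩ else ⟨.A2, c.h - 1, c.x⟩
  | true, .B3 => if c.h = P.R * P.W then ⟨.A2, P.R * P.W, P.out true c.x⟩
      else ⟨.B3, c.h + 1, c.x⟩
  | true, .B4 => if c.h = P.R * P.W then ⟨.B3, 0, c.x⟩ else ⟨.B4, c.h + 1, c.x⟩

end Vale.Agent.P330.S.Mach
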