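import Vale.Agent.P330.S.H174.MachNext

/-!
# The facts about the concrete dynamics, from locally valid implies semantic
-/

namespace Vale.Agent.P330.S.Mach

open Finset

variable {r : ℕ} {P : Prm} {L : Fin r → ℕ}

theorem nx_A1f (P : Prm) (hd : ℕ) (x : ℕ → Bool) : (Conf.mk .A1 hd x).next P false =
    if hd = P.R * P.W then ⟨.A2, 0, x⟩ else ⟨.A1, hd + 1, x⟩ := rfl

theorem nx_A2f (P : Prm) (hd : ℕ) (x : ℕ → Bool) : (Conf.mk .A2 hd x).next P false =
    if hd = P.R * P.W then ⟨.B3, P.R * P.W, P.out false x⟩ else ⟨.A2, hd + 1, x⟩ := rfl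

theorem nx_B3f (P : Prm) (hd : ℕ) (x : ℕ → Bool) : (Conf.mk .B3 hd x).next P false =
    if hd = 0 then ⟨.B4, P.R * P.W, x⟩ else ⟨.B3, hd - 1, x⟩ := rfl

theorem nx_B4f (P : Prm) (hd : ℕ) (x : ℕ → Bool) : (Conf.mk .B4 hd x).next P false =
    if hd = P.W then ⟨.A1, P.W, x⟩ else ⟨.B4, hd - 1, x⟩ := rfl

theorem nx_A1t (P : Prm) (hd : ℕ) (x : ℕ → Bool) : (Conf.mk .A1 hd x).next P true =
    if hd = P.W then ⟨.B4, P.W, x⟩ else ⟨.A1, hd - 1, x⟩ := rfl

theorem nx_A2t (P : Prm) (hd : ℕ) (x : ℕ → Bool) : (Conf.mk .A2 hd x).next P true =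
    if hd = 0 then ⟨.A1, P.R * P.W, x⟩ else ⟨.A2, hd - 1, x⟩ := rfl

theorem nx_B3t (P : Prm) (hd : ℕ) (x : ℕ → Bool) : (Conf.mk .B3 hd x).next P true =
    if hd = P.R * P.W then ⟨.A2, P.R * P.W, P.out true x⟩ else ⟨.B3, hd + 1, x⟩ := rfl

theorem nx_B4t (P : Prm) (hd : ℕ) (x : ℕ → Bool) : (Conf.mk .B4 hd x).next P true =
    if hd = P.R * P.W then ⟨.B3, 0, x⟩ else ⟨.B4, hd + 1, x⟩ := rfl

/-- Going back (as configurations). -/
theorem next_next (h : Good P L) {c : Conf} (hc : c.Ok P) (z : Bool) :
    ((c.next P z).next P (!z)).render P L = c.render P L := by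
  have hW := h.W2
  have hWR := h.W_le
  have hRW := h.RW_eq
  have hnW := h.nW
  obtain ⟨ph, hd, x⟩ := c
  obtain ⟨hR, hnz, hmt⟩ := hc
  have h1 : hd ≤ P.R * P.W := hR.1
  cases z <;> cases ph <;> simp only [Bool.not_false, Bool.not_true]
  · have h4 : P.W ≤ hd := hR.2 rfl
    rw [nx_A1f]
    by_cases e : hd = P.R * P.W
    · rw [if_pos e, nx_A2t, if_pos rfl, e]
    · rw [if_neg e, nx_A1t, if_neg (by omega)]; rfl
  · rw [nx_A2f]
    by_cases e : hd = P.R * P.W
    · rw [if_pos e, nx_B3t, if_pos rfl, e]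
      refine render_congr fun j hj => ?_
      exact hmt rfl j hj (by show _ < hd; omega)
    · rw [if_neg e, nx_A2t, if_neg (by omega)]; rfl
  · rw [nx_B3f]
    by_cases e : hd = 0
    · rw [if_pos e, nx_B4t, if_pos rfl, e]
    · rw [if_neg e, nx_B3t, if_neg (by omega), show hd - 1 + 1 = hd by omega]
  · have h4 : P.W ≤ hd := hR.2 rfl
    rw [nx_B4f]
    by_cases e : hd = P.W
    · rw [if_pos e, nx_A1t, if_pos rfl, e]
    · rw [if_neg e, nx_B4t, if_neg (by omega), show hd - 1 + 1 = hd by omega]
  · have h4 : P.W ≤ hd := hR.2 rfl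
    rw [nx_A1t]
    by_cases e : hd = P.W
    · rw [if_pos e, nx_B4f, if_pos rfl, e]
    · rw [if_neg e, nx_A1f, if_neg (by omega), show hd - 1 + 1 = hd by omega]
  · rw [nx_A2t]
    by_cases e : hd = 0
    · rw [if_pos e, nx_A1f, if_pos rfl, e]
    · rw [if_neg e, nx_A2f, if_neg (by omega), show hd - 1 + 1 = hd by omega]
  · rw [nx_B3t]
    by_cases e : hd = P.R * P.W
    · rw [if_pos e, nx_A2f, if_pos rfl, e]
      refine render_congr fun j hj => ?_
      exact hmt rfl j hj (by show _ < hd; omega)
    · rw [if_neg e, nx_B3f, if_neg (by omega)]; rfl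
  · have h4 : P.W ≤ hd := hR.2 rfl
    rw [nx_B4t]
    by_cases e : hd = P.R * P.W
    · rw [if_pos e, nx_B3f, if_pos rfl, e]
    · rw [if_neg e, nx_B4f, if_neg (by omega)]; rfl

/-- The next configuration is correct, except for new constraints that are violated. -/
theorem ok_next_false (h : Good P L) {c : Conf} (hc : c.Ok P) (hn : ¬ (c.next P false).Ok P) :
    c.ph = .A2 ∧ ((∀ j < P.n, P.out false c.x j = false) ∨
      ∃ j < P.n, P.out true (P.out false c.x) j ≠ c.x j) := by
  have hW := h.W2
  have hWR := h.W_le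
  have hRW := h.RW_eq
  have hnW := h.nW
  have hR' := next_rng h hc.1 false
  obtain ⟨ph, hd, x⟩ := c
  obtain ⟨hR, hnz, hmt⟩ := hc
  have h1 : hd ≤ P.R * P.W := hR.1
  cases ph
  · exfalso
    apply hn
    refine ⟨hR', ?_, ?_⟩
    · simp only [Conf.next]
      split_ifs with e
      · intro h2
        have h3 : P.W ≤ 0 := h2
        omega
      · trivial
    · simp only [Conf.next]
      split_ifs with e
      · intro _ j _ h2
        have h3 : (P.R - 1) * P.W + j < 0 := h2
        omega
      · intro h2; cases h2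
  · refine ⟨rfl, ?_⟩
    by_contra hcon
    push Not at hcon
    obtain ⟨⟨j0, hj0, hj0'⟩, hall⟩ := hcon
    have hj0'' : P.out false x j0 = true := by simpa using hj0'
    have hall' : ∀ j < P.n, P.out true (P.out false x) j = x j := hall
    apply hn
    refine ⟨hR', ?_, ?_⟩
    · simp only [Conf.next]
      split_ifs with e
      · exact ⟨j0, hj0, hj0''⟩
      · intro _
        exact ⟨j0, hj0, hj0''⟩
    · simp only [Conf.next]
      split_ifs with e
      · intro _ j hj _
        show P.out false (P.out true (P.out false x)) j = P.out false x j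
        rw [out_congr P false hall']
      · intro _ j hj _
        exact hall' j hj
  · exfalso
    apply hn
    refine ⟨hR', ?_, ?_⟩
    · simp only [Conf.next]
      split_ifs with e <;> exact hnz
    · simp only [Conf.next]
      split_ifs with e
      · intro h2; cases h2
      · intro _ j hj h2
        have h3 : (P.R - 1) * P.W + j < hd - 1 := h2
        exact hmt rfl j hj (by show _ < hd; omega)
  · exfalso
    apply hn
    refine ⟨hR', ?_, ?_⟩
    · simp only [Conf.next]
      split_ifs with e
      · trivial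
      · exact hnz
    · simp only [Conf.next]
      split_ifs with e <;> (intro h2; cases h2)

theorem ok_next_true (h : Good P L) {c : Conf} (hc : c.Ok P) (hn : ¬ (c.next P true).Ok P) :
    (c.ph = .A1 ∧ c.h = P.W ∧ ∀ j < P.n, c.x j = false) ∨
    (c.ph = .B3 ∧ (∃ j < P.n, c.x j = true) ∧
      ∃ j < P.n, P.out false (P.out true c.x) j ≠ c.x j) := by
  have hW := h.W2
  have hWR := h.W_le
  have hRW := h.RW_eq
  have hnW := h.nW
  have hR' := next_rng h hc.1 true
  obtain ⟨ph, hd, x⟩ := c
  obtain ⟨hR, hnz, hmt⟩ := hc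
  have h1 : hd ≤ P.R * P.W := hR.1
  cases ph
  · left
    refine ⟨rfl, ?_⟩
    by_contra hcon
    apply hn
    refine ⟨hR', ?_, ?_⟩
    · simp only [Conf.next]
      split_ifs with e
      · have h2 : ¬ ∀ j < P.n, x j = false := fun h3 => hcon ⟨e, h3⟩
        push Not at h2
        obtain ⟨j, hj, hj'⟩ := h2
        exact ⟨j, hj, by simpa using hj'⟩
      · trivial
    · simp only [Conf.next]
      split_ifs with e <;> (intro h2; cases h2)
  · exfalso
    apply hn
    refine ⟨hR', ?_, ?_⟩
    · simp only [Conf.next]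
      split_ifs with e
      · trivial
      · intro h2
        have h3 : P.W ≤ hd - 1 := h2
        exact hnz (by show P.W ≤ hd; omega)
    · simp only [Conf.next]
      split_ifs with e
      · intro h2; cases h2
      · intro _ j hj h2
        have h3 : (P.R - 1) * P.W + j < hd - 1 := h2
        exact hmt rfl j hj (by show _ < hd; omega)
  · right
    refine ⟨rfl, hnz, ?_⟩
    by_contra hcon
    push Not at hcon
    have hall' : ∀ j < P.n, P.out false (P.out true x) j = x j := hcon
    obtain ⟨j0, hj0, hj0'⟩ : ∃ j < P.n, x j = true := hnz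
    apply hn
    refine ⟨hR', ?_, ?_⟩
    · simp only [Conf.next]
      split_ifs with e
      · intro _
        refine ⟨j0, hj0, ?_⟩
        show P.out false (P.out true x) j0 = true
        rw [hall' j0 hj0, hj0']
      · exact ⟨j0, hj0, hj0'⟩
    · simp only [Conf.next]
      split_ifs with e
      · intro _ j hj _
        show P.out true (P.out false (P.out true x)) j = P.out true x j
        rw [out_congr P true hall']
      · intro _ j hj _
        exact hall' j hj
  · exfalso
    apply hn
    refine ⟨hR', ?_, ?_⟩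
    · simp only [Conf.next]
      split_ifs with e <;> exact hnz
    · simp only [Conf.next]
      split_ifs with e
      · intro _ j _ h2
        have h3 : (P.R - 1) * P.W + j < 0 := h2
        omega
      · intro h2; cases h2

/-- Locally valid implies semantic. -/
def ValidConf : Prop :=
  ∀ (r : ℕ) (P : Prm) (L : Fin r → ℕ) (h : Good P L) (w : (∀ i, ZMod (L i)) → Cell),
    (mkInst P L h).Valid w → ∃ c : Conf, c.Ok P ∧ w = c.render P L

theorem machStmt_of (hV : ValidConf) : MachStmt := by
  intro r P L h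
  have hW := h.W2
  have hWR := h.W_le
  have hRW := h.RW_eq
  have hnW := h.nW
  refine ⟨⟨valid_w0 h, ?_, ?_, ?_⟩, ?_, ?_⟩
  · intro w hw
    obtain ⟨c, hc, rfl⟩ := hV r P L h w hw
    exact ⟨_, isHead_render h hc.1⟩
  · intro z w hw hw'
    obtain ⟨c, hc, rfl⟩ := hV r P L h w hw
    rw [render_next h hc z] at hw' ⊢
    have hc' := valid_ok h (next_rng h hc.1 z) hw'
    rw [render_next h hc' (!z), next_next h hc z]
  · intro hw
    rw [w0_render h, render_next h (ok_w0 h) true] at hw
    refine not_valid_pred h ?_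
    have e : (Conf.mk .A1 P.W fun _ => false).next P true = ⟨.B4, P.W, fun _ => false⟩ := by
      simp [Conf.next]
    rwa [e] at hw
  · intro w hw hw'
    obtain ⟨c, hc, rfl⟩ := hV r P L h w hw
    rw [render_next h hc false] at hw'
    have hn : ¬ (c.next P false).Ok P := fun h1 => hw' (ok_valid h h1)
    obtain ⟨hph, hsol⟩ := ok_next_false h hc hn
    refine ⟨c.x, ?_, hsol⟩
    intro j hj
    have hj' : j < P.R * P.W := by omega
    rw [render_pt h c hj'.le]
    refine ⟨P.tab false c.x j, ?_, ?_⟩
    · show c.arr P false j = _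
      rw [arr_eq_some]
      obtain ⟨ph, hd, x⟩ := c
      obtain rfl : ph = .A2 := hph
      exact ⟨hj', rfl⟩
    · rw [tab_v P false c.x (by omega), decide_eq_true hj, Bool.true_and]
  · intro w hw hw0 hw'
    obtain ⟨c, hc, rfl⟩ := hV r P L h w hw
    rw [render_next h hc true] at hw'
    have hn : ¬ (c.next P true).Ok P := fun h1 => hw' (ok_valid h h1)
    rcases ok_next_true h hc hn with ⟨hph, hh, hx⟩ | ⟨hph, hnz, hsol⟩
    · exfalso
      apply hw0
      obtain ⟨ph, hd, x⟩ := c
      obtain rfl : ph = .A1 := hph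
      obtain rfl : hd = P.W := hh
      rw [w0_render h]
      exact render_congr hx
    · refine ⟨c.x, ?_, hnz, hsol⟩
      intro j hj
      have hj' : j < P.R * P.W := by omega
      rw [render_pt h c hj'.le]
      refine ⟨P.tab true c.x j, ?_, ?_⟩
      · show c.arr P true j = _
        rw [arr_eq_some]
        obtain ⟨ph, hd, x⟩ := c
        obtain rfl : ph = .B3 := hph
        exact ⟨hj', rfl⟩
      · rw [tab_v P true c.x (by omega), decide_eq_true hj, Bool.true_and]

end Vale.Agent.P330.S.Mach
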