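import Vale.Agent.P330.S.H174.MachStep

/-!
# The step on semantic configurations: all cases
-/

namespace Vale.Agent.P330.S.Mach

open Finset

variable {r : ℕ} {P : Prm} {L : Fin r → ℕ}

theorem zone_endd_iff (h : Good P L) {p : ℕ} : (P.st p).zone = .endd ↔ p = P.R * P.W := by
  have := h.W_le
  exact P.st_zone_endd (by omega)

theorem first_iff (h : Good P L) {p : ℕ} : (P.st p).first = true ↔ p = 0 := by
  have := h.W2
  rw [P.st_first (by omega), decide_eq_true_eq]

theorem isW_iff (h : Good P L) {p : ℕ} : (P.st p).isW = true ↔ p = P.W := by
  have h1 := h.W2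
  have h2 := h.W_le
  rw [P.st_isW (by omega) (by omega), decide_eq_true_eq]

/-- Range of the next configuration. -/
theorem next_rng (h : Good P L) {c : Conf} (hc : c.Rng P) (z : Bool) : (c.next P z).Rng P := by
  have hW := h.W2
  have hWR := h.W_le
  obtain ⟨ph, hd, x⟩ := c
  obtain ⟨h1, h2⟩ := hc
  cases z <;> cases ph <;> simp only [Conf.next] <;> split_ifs with e <;>
    simp only [Conf.Rng, Ph.full, forall_const, reduceCtorEq, false_implies, and_true,
      Bool.false_eq_true, Bool.true_eq_false] at * <;> omega

/-- If `x` agrees with `y` on the relevant bits, the arrays agree. -/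
theorem arr_congr {ph : Ph} {hd : ℕ} {x y : ℕ → Bool} (hxy : ∀ j < P.n, x j = y j) (k : Bool)
    (p : ℕ) : (Conf.mk ph hd x).arr P k p = (Conf.mk ph hd y).arr P k p := by
  unfold Conf.arr
  have h1 : (Conf.mk ph hd x).len P k = (Conf.mk ph hd y).len P k := rfl
  rw [h1]
  congr 2
  unfold Conf.inp
  by_cases hk : k = ph.own
  · simp only [hk, if_true]
    exact tab_congr P _ hxy p
  · simp only [hk, if_false]
    rw [out_congr P _ hxy]

theorem render_congr {ph : Ph} {hd : ℕ} {x y : ℕ → Bool} (hxy : ∀ j < P.n, x j = y j) :
    (Conf.mk ph hd x).render P L = (Conf.mk ph hd y).render P L := by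
  funext j
  unfold Conf.render
  apply cell_ext'
  · rfl
  · rfl
  · rfl
  · intro k
    rw [cell_arr, cell_arr]
    exact arr_congr hxy k _

/-- The step. -/
theorem render_next (h : Good P L) {c : Conf} (hc : c.Ok P) (z : Bool) :
    (mkInst P L h).step z (c.render P L) = (c.next P z).render P L := by
  have hW := h.W2
  have hWR := h.W_le
  have hRW := h.RW_eq
  have hnW := h.nW
  obtain ⟨ph, hd, x⟩ := c
  obtain ⟨hR, hnz, hmt⟩ := hc
  have h1 : hd ≤ P.R * P.W := hR.1
  have hst : (Conf.cell P ⟨ph, hd, x⟩ hd).st = P.st hd := rfl
  have hph : (Conf.cell P ⟨ph, hd, x⟩ hd).ph = ph := rfl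
  cases z <;> cases ph
  · -- successor, A1
    simp only [Conf.next]
    split_ifs with e
    · subst e
      refine render_jump h _ ⟨.A2, 0, x⟩ hR (Nat.zero_le _) false (sw := false) (tgt := .mR)
        (by show 0 ≠ P.R * P.W; omega) (by decide) rfl ?_ ?_ ?_
      · rw [Good.pt_mR le_rfl, Nat.sub_self]
      · intro k p hp
        cases k <;> simp [Conf.arr, Conf.len, Conf.inp, Ph.act, Ph.full, Ph.own]
      · show (if _ then _ else _) = _
        rw [if_pos]
        exact (zone_endd_iff h).2 rfl
    · refine render_fill h _ hR (by show hd < _; omega) false ?_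
      show (if _ then _ else _) = _
      rw [if_neg]
      · rfl
      · exact fun e' => e ((zone_endd_iff h).1 e')
  · -- successor, A2
    simp only [Conf.next]
    split_ifs with e
    · subst e
      refine render_jump0 h _ ⟨.B3, P.R * P.W, P.out false x⟩ hR false (sw := false) rfl ?_ ?_
      · intro k p hp
        cases k
        · simp only [Conf.arr, Conf.len, Conf.inp, Ph.act, Ph.full, Ph.own]
          simp only [Bool.false_eq_true, if_false, if_true, Bool.xor_false]
          rw [tab_congr P false (y := x)]
          intro j hj
          exact hmt rfl j hj (by show _ < P.R * P.W; omega)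
        · simp [Conf.arr, Conf.len, Conf.inp, Ph.act, Ph.full, Ph.own]
      · show (if _ then _ else _) = _
        rw [if_pos]
        exact (zone_endd_iff h).2 rfl
    · refine render_fill h _ hR (by show hd < _; omega) false ?_
      show (if _ then _ else _) = _
      rw [if_neg]
      · rfl
      · exact fun e' => e ((zone_endd_iff h).1 e')
  · -- successor, B3
    simp only [Conf.next]
    split_ifs with e
    · subst e
      refine render_jump h _ ⟨.B4, P.R * P.W, x⟩ hR le_rfl false (sw := false) (tgt := .pR)
        (by show P.R * P.W ≠ 0; omega) (by decide) rfl ?_ ?_ ?_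
      · rw [Good.pt_pR, zero_add]
      · intro k p hp
        cases k <;> simp [Conf.arr, Conf.len, Conf.inp, Ph.act, Ph.full, Ph.own]
      · show (if _ then _ else _) = _
        rw [if_pos]
        exact (first_iff h).2 rfl
    · refine render_unfill h _ hR (by show 0 < hd; omega) false ?_
      show (if _ then _ else _) = _
      rw [if_neg]
      · rfl
      · exact fun e' => e ((first_iff h).1 e')
  · -- successor, B4
    simp only [Conf.next]
    have h2 : P.W ≤ hd := hR.2 rfl
    split_ifs with e
    · subst e
      refine render_jump0 h _ ⟨.A1, P.W, x⟩ hR false (sw := true) rfl ?_ ?_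
      · intro k p hp
        cases k
        · simp only [Conf.arr, Conf.len, Conf.inp, Ph.act, Ph.full, Ph.own, Bool.true_xor,
            Bool.not_false, if_true]
          split_ifs with h3
          · rw [tab_row0_eq P false true _ h3]
          · rfl
        · simp [Conf.arr, Conf.len, Conf.inp, Ph.act, Ph.full, Ph.own]
      · show (if _ then _ else _) = _
        rw [if_pos]
        exact (isW_iff h).2 rfl
    · refine render_unfill h _ hR (by show 0 < hd; omega) false ?_
      show (if _ then _ else _) = _
      rw [if_neg]
      · rfl
      · exact fun e' => e ((isW_iff h).1 e')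
  · -- predecessor, A1
    simp only [Conf.next]
    have h2 : P.W ≤ hd := hR.2 rfl
    split_ifs with e
    · subst e
      refine render_jump0 h _ ⟨.B4, P.W, x⟩ hR true (sw := true) rfl ?_ ?_
      · intro k p hp
        cases k
        · simp [Conf.arr, Conf.len, Conf.inp, Ph.act, Ph.full, Ph.own]
        · simp only [Conf.arr, Conf.len, Conf.inp, Ph.act, Ph.full, Ph.own, Bool.true_xor,
            Bool.not_true, if_true]
          split_ifs with h3
          · rw [tab_row0_eq P false true _ h3]
          · rfl
      · show (if _ then _ else _) = _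
        rw [if_pos]
        exact (isW_iff h).2 rfl
    · refine render_unfill h _ hR (by show 0 < hd; omega) true ?_
      show (if _ then _ else _) = _
      rw [if_neg]
      · rfl
      · exact fun e' => e ((isW_iff h).1 e')
  · -- predecessor, A2
    simp only [Conf.next]
    split_ifs with e
    · subst e
      refine render_jump h _ ⟨.A1, P.R * P.W, x⟩ hR le_rfl true (sw := false) (tgt := .pR)
        (by show P.R * P.W ≠ 0; omega) (by decide) rfl ?_ ?_ ?_
      · rw [Good.pt_pR, zero_add]
      · intro k p hp
        cases k <;> simp [Conf.arr, Conf.len, Conf.inp, Ph.act, Ph.full, Ph.own]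
      · show (if _ then _ else _) = _
        rw [if_pos]
        exact (first_iff h).2 rfl
    · refine render_unfill h _ hR (by show 0 < hd; omega) true ?_
      show (if _ then _ else _) = _
      rw [if_neg]
      · rfl
      · exact fun e' => e ((first_iff h).1 e')
  · -- predecessor, B3
    simp only [Conf.next]
    split_ifs with e
    · subst e
      refine render_jump0 h _ ⟨.A2, P.R * P.W, P.out true x⟩ hR true (sw := false) rfl ?_ ?_
      · intro k p hp
        cases k
        · simp [Conf.arr, Conf.len, Conf.inp, Ph.act, Ph.full, Ph.own]
        · simp only [Conf.arr, Conf.len, Conf.inp, Ph.act, Ph.full, Ph.own]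
          simp only [Bool.true_eq_false, if_false, if_true, Bool.false_xor]
          rw [tab_congr P true (y := x)]
          intro j hj
          exact hmt rfl j hj (by show _ < P.R * P.W; omega)
      · show (if _ then _ else _) = _
        rw [if_pos]
        exact (zone_endd_iff h).2 rfl
    · refine render_fill h _ hR (by show hd < _; omega) true ?_
      show (if _ then _ else _) = _
      rw [if_neg]
      · rfl
      · exact fun e' => e ((zone_endd_iff h).1 e')
  · -- predecessor, B4
    simp only [Conf.next]
    split_ifs with e
    · subst e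
      refine render_jump h _ ⟨.B3, 0, x⟩ hR (Nat.zero_le _) true (sw := false) (tgt := .mR)
        (by show 0 ≠ P.R * P.W; omega) (by decide) rfl ?_ ?_ ?_
      · rw [Good.pt_mR le_rfl, Nat.sub_self]
      · intro k p hp
        cases k <;> simp [Conf.arr, Conf.len, Conf.inp, Ph.act, Ph.full, Ph.own]
      · show (if _ then _ else _) = _
        rw [if_pos]
        exact (zone_endd_iff h).2 rfl
    · refine render_fill h _ hR (by show hd < _; omega) true ?_
      show (if _ then _ else _) = _
      rw [if_neg]
      · rfl
      · exact fun e' => e ((zone_endd_iff h).1 e')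

end Vale.Agent.P330.S.Mach
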