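import Vale.Agent.P330.S.H174.MachAct

/-!
# The step on semantic configurations
-/

namespace Vale.Agent.P330.S.Mach

open Finset

variable {r : ℕ} {P : Prm} {L : Fin r → ℕ}

/-! ### Arrays -/

/-- Row `0` does not depend on the program. -/
theorem tab_row0_eq (P : Prm) (k k' : Bool) (x : ℕ → Bool) {p : ℕ} (hp : p < P.W) :
    P.tab k x p = P.tab k' x p := by
  induction p with
  | zero => rw [tab_lt P k x hp, tab_lt P k' x hp]; simp
  | succ p ih =>
    rw [tab_lt P k x hp, tab_lt P k' x hp, if_neg (by omega), if_neg (by omega)]
    simp only [Nat.add_sub_cancel]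
    rw [ih (by omega)]

/-! ### Rendering -/

theorem st_of_row0 {p : ℕ} (hp : p < P.W) : P.st p =
    ⟨.row0, decide (p = 0), decide (p + 1 = P.W), false, decide (p < P.n), PI.nop, PI.nop⟩ := by
  unfold Prm.st; rw [if_pos hp]

theorem st_of_mid {p : ℕ} (hp : P.W ≤ p) (hp' : p < P.R * P.W) : P.st p =
    ⟨.mid, false, false, decide (p = P.W), false, P.prog false p, P.prog true p⟩ := by
  unfold Prm.st; rw [if_neg (by omega), if_pos hp']

theorem Ph.own_full {ph : Ph} (hf : ph.full = true) : ph.own = !ph.act := by
  cases ph <;> first | rfl | cases hf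

theorem Ph.own_nfull {ph : Ph} (hf : ph.full = false) : ph.own = ph.act := by
  cases ph <;> first | rfl | cases hf

/-- The new content is right. -/
theorem newCon_eq (h : Good P L) (c : Conf) (hc : c.Rng P) (hh : c.h < P.R * P.W) :
    newCon c.ph.act (c.render P L (pt L c.h)) (c.render P L (pt L c.h + P.off L .m1))
      (c.render P L (pt L c.h + P.off L .mW)) (c.render P L (pt L c.h + P.off L .far)) =
    P.tab c.ph.act (c.inp P c.ph.act) c.h := by
  have hW := h.W2
  have hlast := h.RW_eq
  set k := c.ph.act with hk
  have hl : ((c.render P L (pt L c.h + P.off L .m1)).arr k).getD conD =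
      if c.h = 0 then conD else P.tab k (c.inp P k) (c.h - 1) := by
    by_cases h0 : c.h = 0
    · rw [if_pos h0]
      have : c.render P L (pt L c.h + P.off L .m1) = c.cell P (P.R * P.W + 1) := by
        unfold Conf.render
        rw [h0, h.posn_m1_zero]
      rw [this, cell_arr]
      unfold Conf.arr
      rw [hk, len_act, if_neg (by omega)]
      rfl
    · rw [if_neg h0, Good.pt_m1 (by omega), render_pt h c (by omega), cell_arr]
      unfold Conf.arr
      rw [hk, len_act, if_pos (by omega)]
      rfl
  rw [render_pt h c hh.le]
  unfold newCon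
  rcases lt_or_ge c.h P.W with h1 | h1
  · have hf : c.ph.full = true := by
      by_contra hf
      have := hc.2 (by simpa using hf)
      omega
    rw [show (c.cell P c.h).st = P.st c.h from rfl, st_of_row0 h1]
    rw [if_pos rfl, hl, tab_lt P k _ h1]
    congr 1
    · rw [Good.pt_far, render_pt h c (by omega), cell_arr]
      unfold Conf.arr
      rw [hk, len_other, if_pos hf, if_pos (by omega)]
      simp only [Option.getD_some]
      have hi : c.inp P c.ph.act = P.out (!c.ph.act) c.x := by
        unfold Conf.inp
        rw [Ph.own_full hf, if_neg (by cases c.ph.act <;> decide)]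
      have hi' : c.inp P (!c.ph.act) = c.x := by
        unfold Conf.inp
        rw [Ph.own_full hf, if_pos rfl]
      rw [hi, hi']
      unfold Prm.out
      rw [add_comm c.h]
      cases decide (c.h < P.n) <;> simp
  · rw [show (c.cell P c.h).st = P.st c.h from rfl, st_of_mid h1 hh]
    rw [if_neg (fun e => by cases e), hl, if_neg (by omega), Good.pt_mW h1, render_pt h c (by omega), cell_arr,
      tab_ge P k _ (by omega) h1]
    unfold Conf.arr
    rw [hk, len_act, if_pos (by omega)]
    simp only [Option.getD_some]
    congr 1
    cases c.ph.act <;> rfl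

/-- Extensionality for cells. -/
theorem cell_ext' {c d : Cell} (h1 : c.st = d.st) (h2 : c.ph = d.ph) (h3 : c.hd = d.hd)
    (h4 : ∀ k, c.arr k = d.arr k) : c = d := by
  have h5 := h4 false
  have h6 := h4 true
  cases c; cases d
  simp only [Cell.arr] at *
  simp_all

theorem setArr_arr (c : Cell) (k k' : Bool) (o : Option Con) :
    (c.setArr k o).arr k' = if k' = k then o else c.arr k' := by
  cases k <;> cases k' <;> rfl

theorem setArr_st (c : Cell) (k : Bool) (o : Option Con) : (c.setArr k o).st = c.st := by
  cases k <;> rfl

theorem setArr_ph (c : Cell) (k : Bool) (o : Option Con) : (c.setArr k o).ph = c.ph := by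
  cases k <;> rfl

theorem setArr_hd (c : Cell) (k : Bool) (o : Option Con) : (c.setArr k o).hd = c.hd := by
  cases k <;> rfl

theorem setHd_arr (c : Cell) (b : Bool) (k : Bool) : (c.setHd b).arr k = c.arr k := rfl

/-- Filling a cell. -/
theorem render_fill (h : Good P L) (c : Conf) (hc : c.Rng P) (hh : c.h < P.R * P.W) (z : Bool)
    (ha : actOf z (c.cell P c.h) = .fill c.ph.act) :
    (mkInst P L h).step z (c.render P L) = (Conf.mk c.ph (c.h + 1) c.x).render P L := by
  refine funext fun (j : ∀ i, ZMod (L i)) => ?_
  rw [step_fill h (isHead_render h hc) z (k := c.ph.act) (by rw [render_pt h c hh.le]; exact ha) j,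
    newCon_eq h c hc hh]
  by_cases h1 : j = pt L c.h
  · rw [if_pos h1, h1, render_pt h _ hh.le, render_pt h _ hh.le]
    apply cell_ext'
    · exact setArr_st _ _ _
    · exact setArr_ph _ _ _
    · show false = decide (c.h = c.h + 1)
      simp
    · intro k
      rw [setHd_arr, setArr_arr, cell_arr, cell_arr]
      by_cases hk : k = c.ph.act
      · subst hk
        rw [if_pos rfl]
        unfold Conf.arr
        rw [show (Conf.mk c.ph (c.h + 1) c.x).len P c.ph.act = c.h + 1 from len_act P _,
          if_pos (by simp)]
        rfl
      · rw [if_neg hk]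
        have hk' : k = !c.ph.act := by cases k <;> cases hc' : c.ph.act <;> simp_all
        subst hk'
        unfold Conf.arr
        rw [len_other, show (Conf.mk c.ph (c.h + 1) c.x).len P (!c.ph.act) =
          if c.ph.full then P.R * P.W else 0 from len_other P _]
        rfl
  · rw [if_neg h1]
    have h1' : posn L (P.R * P.W) j ≠ c.h := fun e => h1 ((h.posn_eq_iff hh.le j).1 e)
    by_cases h2 : j = pt L c.h + P.off L .p1
    · rw [if_pos h2]
      rw [Good.pt_p1] at h2
      rw [h2, render_pt h _ (by omega), render_pt h _ (by omega)]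
      apply cell_ext'
      · rfl
      · rfl
      · show true = decide (c.h + 1 = c.h + 1)
        simp
      · intro k
        rw [setHd_arr, cell_arr, cell_arr]
        by_cases hk : k = c.ph.act
        · subst hk
          unfold Conf.arr
          rw [len_act, show (Conf.mk c.ph (c.h + 1) c.x).len P c.ph.act = c.h + 1 from len_act P _,
            if_neg (by omega), if_neg (by omega)]
        · have hk' : k = !c.ph.act := by cases k <;> cases hc' : c.ph.act <;> simp_all
          subst hk'
          unfold Conf.arr
          rw [len_other, show (Conf.mk c.ph (c.h + 1) c.x).len P (!c.ph.act) =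
            if c.ph.full then P.R * P.W else 0 from len_other P _]
          rfl
    · rw [if_neg h2]
      rw [Good.pt_p1] at h2
      have h2' : posn L (P.R * P.W) j ≠ c.h + 1 := fun e =>
        h2 ((h.posn_eq_iff (by omega) j).1 e)
      unfold Conf.render
      generalize posn L (P.R * P.W) j = p at h1' h2'
      apply cell_ext'
      · rfl
      · rfl
      · show decide (p = c.h) = decide (p = c.h + 1)
        simp [h1', h2']
      · intro k
        rw [cell_arr, cell_arr]
        by_cases hk : k = c.ph.act
        · subst hk
          unfold Conf.arr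
          rw [len_act, show (Conf.mk c.ph (c.h + 1) c.x).len P c.ph.act = c.h + 1 from len_act P _]
          by_cases h3 : p < c.h
          · rw [if_pos h3, if_pos (by omega)]
            rfl
          · rw [if_neg h3, if_neg (by omega)]
        · have hk' : k = !c.ph.act := by cases k <;> cases hc' : c.ph.act <;> simp_all
          subst hk'
          unfold Conf.arr
          rw [len_other, show (Conf.mk c.ph (c.h + 1) c.x).len P (!c.ph.act) =
            if c.ph.full then P.R * P.W else 0 from len_other P _]
          rfl

/-- The cells of the array in motion and of the other array after a movement of the head. -/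
theorem arr_other (c : Conf) (h' p : ℕ) {k : Bool} (hk : k ≠ c.ph.act) :
    (Conf.mk c.ph h' c.x).arr P k p = c.arr P k p := by
  have hk' : k = !c.ph.act := by cases k <;> cases hc' : c.ph.act <;> simp_all
  subst hk'
  have e1 : (Conf.mk c.ph h' c.x).len P (!c.ph.act) =
    if c.ph.full then P.R * P.W else 0 := len_other P _
  have e2 : c.len P (!c.ph.act) = if c.ph.full then P.R * P.W else 0 := len_other P _
  unfold Conf.arr
  rw [e1, e2]
  rfl

theorem arr_act (c : Conf) (h' p : ℕ) :
    (Conf.mk c.ph h' c.x).arr P c.ph.act p =
      if p < h' then some (P.tab c.ph.act (c.inp P c.ph.act) p) else none := by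
  unfold Conf.arr
  rw [show (Conf.mk c.ph h' c.x).len P c.ph.act = h' from len_act P _]
  rfl

/-- Emptying a cell. -/
theorem render_unfill (h : Good P L) (c : Conf) (hc : c.Rng P) (hh : 0 < c.h) (z : Bool)
    (ha : actOf z (c.cell P c.h) = .unfill c.ph.act) :
    (mkInst P L h).step z (c.render P L) = (Conf.mk c.ph (c.h - 1) c.x).render P L := by
  refine funext fun (j : ∀ i, ZMod (L i)) => ?_
  have hle := hc.1
  rw [step_unfill h (isHead_render h hc) z (k := c.ph.act)
    (by rw [render_pt h c hc.1]; exact ha) j]
  by_cases h1 : j = pt L c.h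
  · rw [if_pos h1, h1, render_pt h _ hle, render_pt h _ hle]
    apply cell_ext'
    · rfl
    · rfl
    · show false = decide (c.h = c.h - 1)
      simp; omega
    · intro k
      rw [setHd_arr, cell_arr, cell_arr]
      by_cases hk : k = c.ph.act
      · subst hk
        have e1 : c.arr P c.ph.act c.h = none := by
          rw [show c.arr P c.ph.act c.h = if c.h < c.h then _ else _ from arr_act c c.h c.h,
            if_neg (by omega)]
        have e2 := arr_act (P := P) c (c.h - 1) c.h
        rw [if_neg (by omega)] at e2
        rw [e1, e2]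
      · exact (arr_other c _ _ hk).symm
  · rw [if_neg h1]
    have h1' : posn L (P.R * P.W) j ≠ c.h := fun e => h1 ((h.posn_eq_iff hle j).1 e)
    rw [Good.pt_m1 hh]
    by_cases h2 : j = pt L (c.h - 1)
    · rw [if_pos h2]
      rw [h2, render_pt h _ (by omega), render_pt h _ (by omega)]
      apply cell_ext'
      · exact setArr_st _ _ _
      · exact setArr_ph _ _ _
      · show true = decide (c.h - 1 = c.h - 1)
        simp
      · intro k
        rw [setHd_arr, setArr_arr, cell_arr, cell_arr]
        by_cases hk : k = c.ph.act
        · subst hk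
          have e2 := arr_act (P := P) c (c.h - 1) (c.h - 1)
          rw [if_neg (by omega)] at e2
          rw [if_pos rfl, e2]
        · rw [if_neg hk]
          exact (arr_other c _ _ hk).symm
    · rw [if_neg h2]
      have h2' : posn L (P.R * P.W) j ≠ c.h - 1 := fun e =>
        h2 ((h.posn_eq_iff (by omega) j).1 e)
      unfold Conf.render
      generalize posn L (P.R * P.W) j = p at h1' h2'
      apply cell_ext'
      · rfl
      · rfl
      · show decide (p = c.h) = decide (p = c.h - 1)
        simp [h1', h2']
      · intro k
        rw [cell_arr, cell_arr]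
        by_cases hk : k = c.ph.act
        · subst hk
          have e1 := arr_act (P := P) c (c.h - 1) p
          have e2 : c.arr P c.ph.act p = if p < c.h then
            some (P.tab c.ph.act (c.inp P c.ph.act) p) else none := arr_act c c.h p
          rw [e1, e2]
          by_cases h3 : p < c.h
          · rw [if_pos h3, if_pos (by omega)]
          · rw [if_neg h3, if_neg (by omega)]
        · exact (arr_other c _ _ hk).symm

theorem jmp_arr (ph : Ph) (sw : Bool) (c : Cell) (k : Bool) :
    (jmp ph sw c).arr k = c.arr (xor sw k) := by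
  cases sw <;> cases k <;> rfl

theorem jmp_st (ph : Ph) (sw : Bool) (c : Cell) : (jmp ph sw c).st = c.st := by cases sw <;> rfl

theorem jmp_ph (ph : Ph) (sw : Bool) (c : Cell) : (jmp ph sw c).ph = ph := by cases sw <;> rfl

theorem jmp_hd (ph : Ph) (sw : Bool) (c : Cell) : (jmp ph sw c).hd = c.hd := by cases sw <;> rfl

/-- Jump without movement of the head. -/
theorem render_jump0 (h : Good P L) (c c' : Conf) (hc : c.Rng P) (z : Bool) {sw : Bool}
    (hh : c'.h = c.h)
    (harr : ∀ k p, p ≤ P.R * P.W + 1 → c'.arr P k p = c.arr P (xor sw k) p)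
    (ha : actOf z (c.cell P c.h) = .jump c'.ph sw .o0) :
    (mkInst P L h).step z (c.render P L) = c'.render P L := by
  refine funext fun (j : ∀ i, ZMod (L i)) => ?_
  rw [step_jump0 h (isHead_render h hc) z (ph := c'.ph) (sw := sw)
    (by rw [render_pt h c hc.1]; exact ha) j]
  apply cell_ext'
  · exact jmp_st _ _ _
  · exact jmp_ph _ _ _
  · rw [jmp_hd]
    show decide (_ = c.h) = decide (_ = c'.h)
    rw [hh]
  · intro k
    rw [jmp_arr]
    unfold Conf.render
    rw [cell_arr, cell_arr, harr k _ (Good.posn_le L _ j)]

/-- Jump with movement of the head. -/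
theorem render_jump (h : Good P L) (c c' : Conf) (hc : c.Rng P) (hc' : c'.h ≤ P.R * P.W) (z : Bool)
    {sw : Bool} {tgt : Off}
    (hne : c'.h ≠ c.h) (ht : tgt ≠ .o0) (htu : upd tgt = true)
    (htgt : pt L c.h + P.off L tgt = pt L c'.h)
    (harr : ∀ k p, p ≤ P.R * P.W + 1 → c'.arr P k p = c.arr P (xor sw k) p)
    (ha : actOf z (c.cell P c.h) = .jump c'.ph sw tgt) :
    (mkInst P L h).step z (c.render P L) = c'.render P L := by
  refine funext fun (j : ∀ i, ZMod (L i)) => ?_
  rw [step_jump h (isHead_render h hc) z (ph := c'.ph) (sw := sw) ht htu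
    (by rw [render_pt h c hc.1]; exact ha) j, htgt]
  by_cases h1 : j = pt L c.h
  · rw [if_pos h1, h1]
    apply cell_ext'
    · exact jmp_st _ _ _
    · exact jmp_ph _ _ _
    · show false = (c'.render P L (pt L c.h)).hd
      rw [render_pt h _ hc.1]
      show false = decide (c.h = c'.h)
      simp [hne.symm]
    · intro k
      rw [setHd_arr, jmp_arr, render_pt h _ hc.1, render_pt h _ hc.1, cell_arr, cell_arr,
        harr k _ (hc.1.trans (Nat.le_succ _))]
  · rw [if_neg h1]
    by_cases h2 : j = pt L c'.h
    · rw [if_pos h2, h2]
      apply cell_ext'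
      · exact jmp_st _ _ _
      · exact jmp_ph _ _ _
      · show true = (c'.render P L (pt L c'.h)).hd
        rw [render_pt h _ hc']
        show true = decide (c'.h = c'.h)
        simp
      · intro k
        rw [setHd_arr, jmp_arr, render_pt h _ hc', render_pt h _ hc', cell_arr, cell_arr,
          harr k _ (hc'.trans (Nat.le_succ _))]
    · rw [if_neg h2]
      apply cell_ext'
      · exact jmp_st _ _ _
      · exact jmp_ph _ _ _
      · rw [jmp_hd]
        show decide (posn L (P.R * P.W) j = c.h) = decide (posn L (P.R * P.W) j = c'.h)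
        have h1' : posn L (P.R * P.W) j ≠ c.h := fun e => h1 ((h.posn_eq_iff hc.1 j).1 e)
        have h2' : posn L (P.R * P.W) j ≠ c'.h := fun e => h2 ((h.posn_eq_iff hc' j).1 e)
        simp [h1', h2']
      · intro k
        rw [jmp_arr]
        unfold Conf.render
        rw [cell_arr, cell_arr, harr k _ (Good.posn_le L _ j)]

end Vale.Agent.P330.S.Mach
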